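import Mathlib

/-!
Module C1 of UniformAC1 (P313): pairwise independent sampling with the functions
`u ↦ (a u + b) mod P`, exact variance, Chebyshev in the two directions needed.
-/

namespace Vale.Agent.P313.AC.H70

open Finset

/-- All seeds `(a, b)` with `a, b < P`. -/
def seeds (P : ℕ) : Finset (ℕ × ℕ) := range P ×ˢ range P

/-- The part of `S` sampled by the seed `v = (a, b)` with width `w`:
all `u ∈ S` with `(a u + b) mod P < w`. -/
def smp (P w : ℕ) (v : ℕ × ℕ) (S : Finset ℕ) : Finset ℕ :=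
  S.filter (fun u => (v.1 * u + v.2) % P < w)

theorem mem_seeds {P : ℕ} {v : ℕ × ℕ} : v ∈ seeds P ↔ v.1 < P ∧ v.2 < P := by
  simp [seeds]

theorem card_seeds (P : ℕ) : (seeds P).card = P * P := by
  simp [seeds]

theorem smp_subset (P w : ℕ) (v : ℕ × ℕ) (S : Finset ℕ) : smp P w v S ⊆ S :=
  filter_subset _ _

theorem card_smp_le (P w : ℕ) (v : ℕ × ℕ) (S : Finset ℕ) : (smp P w v S).card ≤ S.card :=
  card_le_card (smp_subset P w v S)

theorem smp_full {P : ℕ} (hP : 0 < P) (v : ℕ × ℕ) (S : Finset ℕ) : smp P P v S = S := by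
  unfold smp
  exact filter_true_of_mem (fun u _ => Nat.mod_lt _ hP)

/-- cancellation in `[P]`. -/
theorem add_mod_inj {P x b c : ℕ} (hb : b < P) (hc : c < P)
    (h : (x + b) % P = (x + c) % P) : b = c := by
  have h1 : x + b ≡ x + c [MOD P] := h
  have h2 : b ≡ c [MOD P] := Nat.ModEq.add_left_cancel' x h1
  exact Nat.ModEq.eq_of_lt_of_lt h2 hb hc

theorem card_one {P w : ℕ} (hw : w ≤ P) (u : ℕ) :
    ((seeds P).filter (fun v => (v.1 * u + v.2) % P < w)).card = P * w := by
  classical
  rcases Nat.eq_zero_or_pos P with h0 | hP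
  · subst h0
    have : w = 0 := Nat.le_zero.mp hw
    subst this
    simp
  have key : ∀ a ∈ range P, ((range P).filter (fun b => (a * u + b) % P < w)).card = w := by
    intro a _
    have himg : (range P).image (fun b => (a * u + b) % P) = range P := by
      apply eq_of_subset_of_card_le
      · intro y hy
        obtain ⟨b, _, rfl⟩ := mem_image.mp hy
        exact mem_range.mpr (Nat.mod_lt _ hP)
      · rw [card_image_of_injOn]
        intro b hb c hc hbc
        exact add_mod_inj (mem_range.mp hb) (mem_range.mp hc) hbc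
    have h1 : ((range P).filter (fun b => (a * u + b) % P < w)).card
        = (((range P).image (fun b => (a * u + b) % P)).filter (fun y => y < w)).card := by
      rw [filter_image, card_image_of_injOn]
      intro b hb c hc hbc
      exact add_mod_inj (mem_range.mp (mem_filter.mp hb).1) (mem_range.mp (mem_filter.mp hc).1) hbc
    rw [h1, himg]
    have : (range P).filter (fun y => y < w) = range w := by
      ext y
      simp only [mem_filter, mem_range]
      omega
    rw [this, card_range]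
  unfold seeds
  rw [card_filter, sum_product]
  have : ∀ a ∈ range P, ∑ b ∈ range P, (if (a * u + b) % P < w then 1 else 0) = w := by
    intro a ha
    rw [← card_filter]
    exact key a ha
  rw [sum_congr rfl this]
  simp

/-- the pair map `(a,b) ↦ (a u + b, a u' + b)` mod `P` is injective on seeds. -/
theorem pair_inj {P u u' : ℕ} (hP : P.Prime) (hu : u < P) (hu' : u' < P) (hne : u ≠ u') :
    Set.InjOn (fun v : ℕ × ℕ => ((v.1 * u + v.2) % P, (v.1 * u' + v.2) % P))
      (seeds P : Set (ℕ × ℕ)) := by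
  have : Fact P.Prime := ⟨hP⟩
  rintro ⟨a, b⟩ hv ⟨a', b'⟩ hv' h
  have hv1 := mem_seeds.mp (mem_coe.mp hv)
  have hv1' := mem_seeds.mp (mem_coe.mp hv')
  simp only [Prod.mk.injEq] at h hv1 hv1'
  obtain ⟨h1, h2⟩ := h
  have e1 : ((a : ZMod P) * u + b) = (a' : ZMod P) * u + b' := by
    have := (ZMod.natCast_eq_natCast_iff' (a * u + b) (a' * u + b') P).mpr h1
    push_cast at this
    exact this
  have e2 : ((a : ZMod P) * u' + b) = (a' : ZMod P) * u' + b' := by
    have := (ZMod.natCast_eq_natCast_iff' (a * u' + b) (a' * u' + b') P).mpr h2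
    push_cast at this
    exact this
  have hne' : ((u : ZMod P) - u') ≠ 0 := by
    intro h0
    have h3 : (u : ZMod P) = (u' : ZMod P) := sub_eq_zero.mp h0
    have h4 := (ZMod.natCast_eq_natCast_iff' u u' P).mp h3
    rw [Nat.mod_eq_of_lt hu, Nat.mod_eq_of_lt hu'] at h4
    exact hne h4
  have e3 : ((a : ZMod P) - a') * ((u : ZMod P) - u') = 0 := by
    linear_combination e1 - e2
  have e4 : (a : ZMod P) = a' := by
    rcases mul_eq_zero.mp e3 with h | h
    · exact sub_eq_zero.mp h
    · exact absurd h hne'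
  have ha : a = a' := by
    have := (ZMod.natCast_eq_natCast_iff' a a' P).mp e4
    rwa [Nat.mod_eq_of_lt hv1.1, Nat.mod_eq_of_lt hv1'.1] at this
  subst ha
  have hb : b = b' := add_mod_inj hv1.2 hv1'.2 h1
  rw [hb]

theorem card_two {P w u u' : ℕ} (hP : P.Prime) (hw : w ≤ P) (hu : u < P) (hu' : u' < P)
    (hne : u ≠ u') :
    ((seeds P).filter (fun v => (v.1 * u + v.2) % P < w ∧ (v.1 * u' + v.2) % P < w)).card
      = w * w := by
  classical
  set f : ℕ × ℕ → ℕ × ℕ := fun v => ((v.1 * u + v.2) % P, (v.1 * u' + v.2) % P) with hf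
  have hinj := pair_inj hP hu hu' hne
  have himg : (seeds P).image f = seeds P := by
    apply eq_of_subset_of_card_le
    · intro y hy
      obtain ⟨v, _, rfl⟩ := mem_image.mp hy
      exact mem_seeds.mpr ⟨Nat.mod_lt _ hP.pos, Nat.mod_lt _ hP.pos⟩
    · rw [card_image_of_injOn hinj]
  have h1 : ((seeds P).filter (fun v => (v.1 * u + v.2) % P < w ∧ (v.1 * u' + v.2) % P < w)).card
      = (((seeds P).image f).filter (fun y => y.1 < w ∧ y.2 < w)).card := by
    rw [filter_image, card_image_of_injOn]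
    intro v hv v' hv' h
    have hv1 := (mem_filter.mp (mem_coe.mp hv)).1
    have hv1' := (mem_filter.mp (mem_coe.mp hv')).1
    exact hinj (mem_coe.mpr hv1) (mem_coe.mpr hv1') h
  rw [h1, himg]
  have : (seeds P).filter (fun y => y.1 < w ∧ y.2 < w) = range w ×ˢ range w := by
    ext ⟨x, y⟩
    simp only [mem_filter, mem_seeds, mem_product, mem_range]
    omega
  rw [this]
  simp

/-- first moment. -/
theorem sum_smp {P w : ℕ} (hw : w ≤ P) (S : Finset ℕ) :
    ∑ v ∈ seeds P, (smp P w v S).card = S.card * (P * w) := by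
  classical
  have h : ∀ v ∈ seeds P, (smp P w v S).card
      = ∑ u ∈ S, (if (v.1 * u + v.2) % P < w then 1 else 0) := by
    intro v _
    unfold smp
    rw [card_filter]
  rw [sum_congr rfl h, sum_comm]
  have h2 : ∀ u ∈ S, ∑ v ∈ seeds P, (if (v.1 * u + v.2) % P < w then 1 else 0) = P * w := by
    intro u _
    rw [← card_filter]
    exact card_one hw u
  rw [sum_congr rfl h2]
  simp

/-- second moment. -/
theorem sum_sq_smp {P w : ℕ} (hP : P.Prime) (hw : w ≤ P) {S : Finset ℕ}
    (hS : ∀ u ∈ S, u < P) :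
    ∑ v ∈ seeds P, (smp P w v S).card * (smp P w v S).card
      = S.card * (P * w) + S.card * (S.card - 1) * (w * w) := by
  classical
  have h : ∀ v ∈ seeds P, (smp P w v S).card * (smp P w v S).card
      = ∑ u ∈ S, ∑ u' ∈ S,
        (if (v.1 * u + v.2) % P < w ∧ (v.1 * u' + v.2) % P < w then 1 else 0) := by
    intro v _
    unfold smp
    rw [card_filter, sum_mul_sum]
    refine sum_congr rfl fun u _ => sum_congr rfl fun u' _ => ?_
    by_cases h1 : (v.1 * u + v.2) % P < w <;> by_cases h2 : (v.1 * u' + v.2) % P < w <;>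
      simp [h1, h2]
  rw [sum_congr rfl h, sum_comm]
  have h2 : ∀ u ∈ S, ∑ v ∈ seeds P, ∑ u' ∈ S,
        (if (v.1 * u + v.2) % P < w ∧ (v.1 * u' + v.2) % P < w then 1 else 0)
      = P * w + (S.card - 1) * (w * w) := by
    intro u hu
    rw [sum_comm, ← add_sum_erase S _ hu]
    congr 1
    · rw [← card_filter]
      rw [← card_one hw u]
      congr 1
      ext v
      simp
    · have h3 : ∀ u' ∈ S.erase u, ∑ v ∈ seeds P,
          (if (v.1 * u + v.2) % P < w ∧ (v.1 * u' + v.2) % P < w then 1 else 0) = w * w := by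
        intro u' hu'
        rw [← card_filter]
        exact card_two hP hw (hS u hu) (hS u' (mem_of_mem_erase hu'))
          (ne_of_mem_erase hu').symm
      rw [sum_congr rfl h3]
      simp [card_erase_of_mem hu]
  rw [sum_congr rfl h2]
  simp only [sum_const, smul_eq_mul]
  ring

/-- exact variance, multiplied out. -/
theorem variance {P w : ℕ} (hP : P.Prime) (hw : w ≤ P) {S : Finset ℕ}
    (hS : ∀ u ∈ S, u < P) :
    ∑ v ∈ seeds P, ((P : ℝ) * (smp P w v S).card - S.card * w) ^ 2
      = (P : ℝ) ^ 2 * S.card * w * (P - w) := by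
  have h1 : (∑ v ∈ seeds P, ((smp P w v S).card : ℝ)) = S.card * (P * w) := by
    exact_mod_cast sum_smp hw S
  have h2 : (∑ v ∈ seeds P, ((smp P w v S).card : ℝ) * (smp P w v S).card)
      = S.card * (P * w) + S.card * (S.card - 1) * (w * w) := by
    have h := sum_sq_smp hP hw hS
    rcases Nat.eq_zero_or_pos S.card with h0 | h0
    · rw [h0] at h ⊢
      have h' : (∑ v ∈ seeds P, ((smp P w v S).card : ℝ) * (smp P w v S).card)
        = ((∑ v ∈ seeds P, (smp P w v S).card * (smp P w v S).card : ℕ) : ℝ) := by push_cast; rfl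
      rw [h', h]
      simp
    · have h' : (∑ v ∈ seeds P, ((smp P w v S).card : ℝ) * (smp P w v S).card)
        = ((∑ v ∈ seeds P, (smp P w v S).card * (smp P w v S).card : ℕ) : ℝ) := by push_cast; rfl
      rw [h', h]
      push_cast [Nat.cast_sub h0]
      ring
  have h3 : ∀ v ∈ seeds P, ((P : ℝ) * (smp P w v S).card - S.card * w) ^ 2
      = (P : ℝ) ^ 2 * ((smp P w v S).card * (smp P w v S).card)
        - 2 * P * S.card * w * (smp P w v S).card + (S.card * w) ^ 2 := by
    intro v _; ring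
  rw [sum_congr rfl h3, sum_add_distrib, sum_sub_distrib, ← mul_sum, ← mul_sum, h1, h2]
  rw [sum_const, card_seeds]
  simp only [nsmul_eq_mul]
  push_cast
  ring

/-- Chebyshev: the number of seeds with deviation at least `t` (after multiplication by `P`). -/
theorem chebyshev {P w : ℕ} (hP : P.Prime) (hw : w ≤ P) {S : Finset ℕ}
    (hS : ∀ u ∈ S, u < P) {t : ℝ} (ht : 0 ≤ t) (bad : Finset (ℕ × ℕ)) (hb : bad ⊆ seeds P)
    (h : ∀ v ∈ bad, t ≤ |(P : ℝ) * (smp P w v S).card - S.card * w|) :
    (bad.card : ℝ) * t ^ 2 ≤ (P : ℝ) ^ 2 * S.card * w * (P - w) := by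
  rw [← variance hP hw hS]
  calc (bad.card : ℝ) * t ^ 2 = ∑ v ∈ bad, t ^ 2 := by simp
    _ ≤ ∑ v ∈ bad, ((P : ℝ) * (smp P w v S).card - S.card * w) ^ 2 := by
        refine sum_le_sum fun v hv => ?_
        rw [← sq_abs ((P : ℝ) * (smp P w v S).card - S.card * w)]
        exact pow_le_pow_left₀ ht (h v hv) 2
    _ ≤ ∑ v ∈ seeds P, ((P : ℝ) * (smp P w v S).card - S.card * w) ^ 2 :=
        sum_le_sum_of_subset_of_nonneg hb (fun v _ _ => sq_nonneg _)

/-- Soundness: if `|S| < K` then few seeds have a sample passing the threshold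
`(1 + 1/(2M)) K w / P`. -/
theorem bad_no {P w M K : ℕ} (hP : P.Prime) (hw : w ≤ P) (hw0 : 0 < w) (hK : 0 < K)
    (hM : 0 < M) {S : Finset ℕ} (hS : ∀ u ∈ S, u < P) (hSK : S.card ≤ K) :
    ((seeds P).filter (fun v => (2 * M + 1) * K * w ≤ 2 * M * P * (smp P w v S).card)).card
      * (K * w) ≤ 4 * M ^ 2 * P ^ 3 := by
  classical
  set bad := (seeds P).filter
    (fun v => (2 * M + 1) * K * w ≤ 2 * M * P * (smp P w v S).card) with hbad
  have hPr : (0 : ℝ) < P := by exact_mod_cast hP.pos
  have hwr : (0 : ℝ) < w := by exact_mod_cast hw0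
  have hKr : (0 : ℝ) < K := by exact_mod_cast hK
  have hMr : (0 : ℝ) < M := by exact_mod_cast hM
  have hwP : (w : ℝ) ≤ P := by exact_mod_cast hw
  have hSKr : (S.card : ℝ) ≤ K := by exact_mod_cast hSK
  have hS0 : (0 : ℝ) ≤ S.card := Nat.cast_nonneg _
  have key := chebyshev hP hw hS (t := (K : ℝ) * w / (2 * M)) (by positivity) bad
    (filter_subset _ _) (by
      intro v hv
      have h1 : (2 * M + 1) * K * w ≤ 2 * M * P * (smp P w v S).card := (mem_filter.mp hv).2
      have h2 : ((2 * (M : ℝ) + 1) * K * w) ≤ 2 * M * P * (smp P w v S).card := by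
        exact_mod_cast h1
      refine le_trans ?_ (le_abs_self _)
      rw [div_le_iff₀ (by positivity)]
      nlinarith [mul_nonneg hMr.le (mul_nonneg (sub_nonneg.mpr hSKr) hwr.le)])
  have h3 : (P : ℝ) ^ 2 * S.card * w * (P - w) ≤ (P : ℝ) ^ 3 * (K * w) := by
    have : (S.card : ℝ) * w * (P - w) ≤ K * w * P := by
      have a1 : (S.card : ℝ) * w ≤ K * w := mul_le_mul_of_nonneg_right hSKr hwr.le
      have a2 : (P : ℝ) - w ≤ P := by linarith
      exact mul_le_mul a1 a2 (by linarith) (by positivity)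
    nlinarith [this, sq_nonneg (P : ℝ)]
  have h4 : (bad.card : ℝ) * ((K : ℝ) * w / (2 * M)) ^ 2 ≤ (P : ℝ) ^ 3 * (K * w) := key.trans h3
  have h5 : (bad.card : ℝ) * (K * w) ≤ 4 * M ^ 2 * P ^ 3 := by
    have hKw : (0 : ℝ) < K * w := by positivity
    rw [div_pow, ← mul_div_assoc, div_le_iff₀ (by positivity)] at h4
    have h6 : ((bad.card : ℝ) * (K * w)) * (K * w) ≤ (4 * M ^ 2 * P ^ 3) * (K * w) := by
      nlinarith [h4]
    exact le_of_mul_le_mul_right h6 hKw
  exact_mod_cast h5

/-- Completeness: if `|S| ≥ (1 + 1/M) K` then few seeds have a sample failing the threshold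
`(1 + 1/(2M)) K w / P`. -/
theorem bad_yes {P w M K : ℕ} (hP : P.Prime) (hw : w ≤ P) (hw0 : 0 < w) (hK : 0 < K)
    (hM : 0 < M) {S : Finset ℕ} (hS : ∀ u ∈ S, u < P) (hSK : (M + 1) * K ≤ M * S.card) :
    ((seeds P).filter (fun v => 2 * M * P * (smp P w v S).card < (2 * M + 1) * K * w)).card
      * (K * w) ≤ 4 * (M + 1) ^ 2 * P ^ 3 := by
  classical
  set bad := (seeds P).filter
    (fun v => 2 * M * P * (smp P w v S).card < (2 * M + 1) * K * w) with hbad
  have hPr : (0 : ℝ) < P := by exact_mod_cast hP.pos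
  have hwr : (0 : ℝ) < w := by exact_mod_cast hw0
  have hKr : (0 : ℝ) < K := by exact_mod_cast hK
  have hMr : (0 : ℝ) < M := by exact_mod_cast hM
  have hwP : (w : ℝ) ≤ P := by exact_mod_cast hw
  have hSKr : ((M : ℝ) + 1) * K ≤ M * S.card := by exact_mod_cast hSK
  have hS0 : (0 : ℝ) < S.card := by
    by_contra h
    have h' : (S.card : ℝ) ≤ 0 := not_lt.mp h
    nlinarith [mul_pos (by linarith : (0 : ℝ) < (M : ℝ) + 1) hKr]
  have hKS : (K : ℝ) ≤ S.card := by
    by_contra h
    have h' : (S.card : ℝ) < K := not_le.mp h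
    nlinarith
  have key := chebyshev hP hw hS (t := (S.card : ℝ) * w / (2 * (M + 1))) (by positivity) bad
    (filter_subset _ _) (by
      intro v hv
      have h1 : 2 * M * P * (smp P w v S).card < (2 * M + 1) * K * w := (mem_filter.mp hv).2
      have h2 : 2 * (M : ℝ) * P * (smp P w v S).card < ((2 * (M : ℝ) + 1) * K * w) := by
        exact_mod_cast h1
      rw [abs_sub_comm]
      refine le_trans ?_ (le_abs_self _)
      rw [div_le_iff₀ (by positivity)]
      have h3 : ((2 * (M : ℝ) + 1) * K * w) * (M + 1) ≤ (2 * M + 1) * w * (M * S.card) := by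
        nlinarith [mul_le_mul_of_nonneg_left hSKr (by positivity : (0 : ℝ) ≤ (2 * M + 1) * w)]
      have h4 : 2 * (M : ℝ) * P * (smp P w v S).card * (M + 1)
          ≤ (2 * M + 1) * w * (M * S.card) := by
        nlinarith [mul_le_mul_of_nonneg_right h2.le (by positivity : (0 : ℝ) ≤ (M : ℝ) + 1)]
      have h5 : 2 * (P : ℝ) * (smp P w v S).card * (M + 1) ≤ (2 * M + 1) * w * S.card := by
        have : (M : ℝ) * (2 * (P : ℝ) * (smp P w v S).card * (M + 1))
            ≤ M * ((2 * M + 1) * w * S.card) := by nlinarith [h4]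
        exact le_of_mul_le_mul_left this hMr
      nlinarith [h5])
  have h3 : (P : ℝ) ^ 2 * S.card * w * (P - w) ≤ (P : ℝ) ^ 3 * (S.card * w) := by
    have : (S.card : ℝ) * w * (P - w) ≤ S.card * w * P := by
      have a2 : (P : ℝ) - w ≤ P := by linarith
      exact mul_le_mul_of_nonneg_left a2 (by positivity)
    nlinarith [this, sq_nonneg (P : ℝ)]
  have h4 : (bad.card : ℝ) * ((S.card : ℝ) * w / (2 * (M + 1))) ^ 2
      ≤ (P : ℝ) ^ 3 * (S.card * w) := key.trans h3
  have h5 : (bad.card : ℝ) * (S.card * w) ≤ 4 * (M + 1) ^ 2 * P ^ 3 := by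
    have hKw : (0 : ℝ) < S.card * w := by positivity
    rw [div_pow, ← mul_div_assoc, div_le_iff₀ (by positivity)] at h4
    have h6 : ((bad.card : ℝ) * (S.card * w)) * (S.card * w)
        ≤ (4 * (M + 1) ^ 2 * P ^ 3) * (S.card * w) := by
      nlinarith [h4]
    exact le_of_mul_le_mul_right h6 hKw
  have h7 : (bad.card : ℝ) * (K * w) ≤ 4 * (M + 1) ^ 2 * P ^ 3 := by
    refine le_trans ?_ h5
    have : (K : ℝ) * w ≤ S.card * w := mul_le_mul_of_nonneg_right hKS hwr.le
    exact mul_le_mul_of_nonneg_left this (Nat.cast_nonneg _)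
  exact_mod_cast h7

end Vale.Agent.P313.AC.H70
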