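import Vale.Agent.P313.AC.Spec
import Vale.Agent.P313.AC.H70.Samp

/-!
`ModC1` (second moment of the sampled part) and `ModC2` (injective bucket hash).
-/

namespace Vale.Agent.P313.AC.H70

open Finset

/-- seeds as pairs and seeds as numbers. -/
theorem sum_range_sq {M : Type*} [AddCommMonoid M] (P : ℕ) (F : ℕ × ℕ → M) :
    ∑ g ∈ range (P ^ 2), F (g % P, g / P) = ∑ v ∈ seeds P, F v := by
  rcases Nat.eq_zero_or_pos P with h0 | hP
  · subst h0; simp [seeds]
  refine sum_bij (fun g _ => (g % P, g / P)) ?_ ?_ ?_ ?_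
  · intro g hg
    rw [mem_seeds]
    refine ⟨Nat.mod_lt _ hP, ?_⟩
    rw [Nat.div_lt_iff_lt_mul hP]
    have := mem_range.mp hg
    rwa [pow_two] at this
  · intro g _ g' _ h
    simp only [Prod.mk.injEq] at h
    rw [← Nat.div_add_mod g P, ← Nat.div_add_mod g' P, h.1, h.2]
  · rintro ⟨a, b⟩ hv
    obtain ⟨ha, hb⟩ := mem_seeds.mp hv
    simp only at ha hb
    refine ⟨a + P * b, ?_, ?_⟩
    · rw [mem_range, pow_two]
      nlinarith
    · rw [Nat.add_mul_mod_self_left, Nat.mod_eq_of_lt ha, Nat.add_mul_div_left _ _ hP,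
        Nat.div_eq_of_lt ha, Nat.zero_add]
  · intro g _
    rfl

theorem card_sam {P w g : ℕ} (S : Finset ℕ) (inst : DecidablePred fun u => AC.sam P w g u) :
    (Finset.filter (fun u => AC.sam P w g u) S).card = (smp P w (g % P, g / P) S).card := by
  congr 1
  ext u
  rw [mem_filter]
  unfold smp
  rw [mem_filter]
  exact Iff.rfl

theorem modC1 : AC.ModC1 := by
  intro P w S hP hw hS
  have h3 := variance hP hw hS
  have h4 : (∑ v ∈ seeds P, ((P : ℤ) * (smp P w v S).card - S.card * w) ^ 2)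
      ≤ (P : ℤ) ^ 3 * (S.card * w) := by
    have h5 : (((∑ v ∈ seeds P, ((P : ℤ) * (smp P w v S).card - S.card * w) ^ 2 : ℤ)) : ℝ)
        ≤ (((P : ℤ) ^ 3 * (S.card * w) : ℤ) : ℝ) := by
      push_cast
      rw [h3]
      have hPr : (0 : ℝ) ≤ P := Nat.cast_nonneg _
      have hwr : (0 : ℝ) ≤ w := Nat.cast_nonneg _
      have hSr : (0 : ℝ) ≤ S.card := Nat.cast_nonneg _
      have : (P : ℝ) ^ 3 * (S.card * w) - (P : ℝ) ^ 2 * S.card * w * (P - w)
          = (P : ℝ) ^ 2 * S.card * w * w := by ring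
      have h6 : (0 : ℝ) ≤ (P : ℝ) ^ 2 * S.card * w * w := by positivity
      linarith
    exact_mod_cast h5
  rw [← sum_range_sq P (fun v => ((P : ℤ) * (smp P w v S).card - S.card * w) ^ 2)] at h4
  refine le_trans (le_of_eq ?_) h4
  refine sum_congr rfl fun g _ => ?_
  rw [card_sam]

/-- pairs of values in the same bucket of width `W`. -/
theorem card_same_bucket (P W : ℕ) (hW : 0 < W) :
    ((seeds P).filter (fun y => y.1 / W = y.2 / W)).card ≤ P * W := by
  classical
  unfold seeds
  rw [card_filter, sum_product]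
  have : ∀ a ∈ range P, ∑ b ∈ range P, (if a / W = b / W then 1 else 0) ≤ W := by
    intro a _
    rw [← card_filter]
    calc ((range P).filter (fun b => a / W = b / W)).card
        ≤ (Finset.Ico (a / W * W) (a / W * W + W)).card := by
          apply card_le_card
          intro b hb
          have h1 := (mem_filter.mp hb).2
          rw [mem_Ico, h1]
          have h2 := Nat.div_add_mod b W
          have h3 := Nat.mod_lt b hW
          constructor
          · exact Nat.div_mul_le_self b W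
          · nlinarith [h2, h3, Nat.mul_comm W (b / W)]
      _ = W := by simp
  calc ∑ a ∈ range P, ∑ b ∈ range P, (if a / W = b / W then 1 else 0)
      ≤ ∑ _a ∈ range P, W := sum_le_sum this
    _ = P * W := by simp

/-- collisions of a pair. -/
theorem card_pair_coll {P W u u' : ℕ} (hP : P.Prime) (hW : 0 < W) (hu : u < P) (hu' : u' < P)
    (hne : u ≠ u') :
    ((seeds P).filter (fun v => (v.1 * u + v.2) % P / W = (v.1 * u' + v.2) % P / W)).card
      ≤ P * W := by
  classical
  set f : ℕ × ℕ → ℕ × ℕ := fun v => ((v.1 * u + v.2) % P, (v.1 * u' + v.2) % P) with hf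
  have hinj := pair_inj hP hu hu' hne
  refine le_trans ?_ (card_same_bucket P W hW)
  apply card_le_card_of_injOn f
  · intro v hv
    obtain ⟨_, hv2⟩ := mem_filter.mp (mem_coe.mp hv)
    exact mem_coe.mpr (mem_filter.mpr
      ⟨mem_seeds.mpr ⟨Nat.mod_lt _ hP.pos, Nat.mod_lt _ hP.pos⟩, hv2⟩)
  · intro v hv v' hv' h
    exact hinj (mem_coe.mpr (mem_filter.mp (mem_coe.mp hv)).1)
      (mem_coe.mpr (mem_filter.mp (mem_coe.mp hv')).1) h

theorem two_card_lt_pairs (S : Finset ℕ) :
    2 * ((S ×ˢ S).filter (fun x => x.1 < x.2)).card ≤ S.card * (S.card - 1) := by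
  classical
  set prs := (S ×ˢ S).filter (fun x => x.1 < x.2) with hprs
  set prs' := (S ×ˢ S).filter (fun x => x.2 < x.1) with hprs'
  have e1 : prs'.card = prs.card := by
    apply card_bij (fun x _ => (x.2, x.1))
    · intro x hx
      obtain ⟨hx1, hx2⟩ := mem_filter.mp hx
      obtain ⟨hx3, hx4⟩ := mem_product.mp hx1
      exact mem_filter.mpr ⟨mem_product.mpr ⟨hx4, hx3⟩, hx2⟩
    · rintro ⟨a, b⟩ _ ⟨a', b'⟩ _ h
      simp only [Prod.mk.injEq] at h ⊢
      exact ⟨h.2, h.1⟩
    · rintro ⟨a, b⟩ hx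
      obtain ⟨hx1, hx2⟩ := mem_filter.mp hx
      obtain ⟨hx3, hx4⟩ := mem_product.mp hx1
      exact ⟨(b, a), mem_filter.mpr ⟨mem_product.mpr ⟨hx4, hx3⟩, hx2⟩, rfl⟩
  have hdisj : Disjoint prs prs' := by
    rw [disjoint_left]
    intro x hx hx'
    have a := (mem_filter.mp hx).2
    have b := (mem_filter.mp hx').2
    omega
  have hsub : prs ∪ prs' ⊆ S.offDiag := by
    intro x hx
    rcases mem_union.mp hx with h | h
    · obtain ⟨hx1, hx2⟩ := mem_filter.mp h
      obtain ⟨hx3, hx4⟩ := mem_product.mp hx1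
      exact mem_offDiag.mpr ⟨hx3, hx4, by omega⟩
    · obtain ⟨hx1, hx2⟩ := mem_filter.mp h
      obtain ⟨hx3, hx4⟩ := mem_product.mp hx1
      exact mem_offDiag.mpr ⟨hx3, hx4, by omega⟩
  have h3 := card_le_card hsub
  rw [card_union_of_disjoint hdisj, e1, offDiag_card] at h3
  have h4 : S.card * S.card - S.card = S.card * (S.card - 1) := by
    rw [Nat.mul_sub_one]
  omega

theorem modC2 : AC.ModC2 := by
  classical
  intro P K S hP hK hKP hSK hS
  set W := P / K + 1 with hW
  have hW0 : 0 < W := Nat.succ_pos _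
  have hWK : W * K ≤ 2 * P := by
    have h1 : P / K * K ≤ P := Nat.div_mul_le_self P K
    calc W * K = P / K * K + K := by rw [hW]; ring
      _ ≤ 2 * P := by omega
  by_contra hcon
  push Not at hcon
  set prs := (S ×ˢ S).filter (fun x => x.1 < x.2) with hprs
  have hcover : seeds P ⊆ prs.biUnion (fun x => (seeds P).filter
      (fun v => (v.1 * x.1 + v.2) % P / W = (v.1 * x.2 + v.2) % P / W)) := by
    rintro ⟨a, b⟩ hv
    obtain ⟨ha, hb⟩ := mem_seeds.mp hv
    simp only at ha hb
    have hlt : a + P * b < P ^ 2 := by rw [pow_two]; nlinarith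
    obtain ⟨u, hu, u', hu', he, hne⟩ := hcon (a + P * b) hlt
    have e1 : (a + P * b) % P = a := by
      rw [Nat.add_mul_mod_self_left, Nat.mod_eq_of_lt ha]
    have e2 : (a + P * b) / P = b := by
      rw [Nat.add_mul_div_left _ _ hP.pos, Nat.div_eq_of_lt ha, Nat.zero_add]
    unfold AC.buc at he
    rw [e1, e2] at he
    rw [mem_biUnion]
    rcases lt_or_gt_of_ne hne with h | h
    · exact ⟨(u, u'), mem_filter.mpr ⟨mem_product.mpr ⟨hu, hu'⟩, h⟩,
        mem_filter.mpr ⟨hv, he⟩⟩
    · exact ⟨(u', u), mem_filter.mpr ⟨mem_product.mpr ⟨hu', hu⟩, h⟩,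
        mem_filter.mpr ⟨hv, he.symm⟩⟩
  have h1 : P * P ≤ prs.card * (P * W) := by
    calc P * P = (seeds P).card := (card_seeds P).symm
      _ ≤ _ := card_le_card hcover
      _ ≤ ∑ x ∈ prs, ((seeds P).filter
          (fun v => (v.1 * x.1 + v.2) % P / W = (v.1 * x.2 + v.2) % P / W)).card :=
          card_biUnion_le
      _ ≤ ∑ _x ∈ prs, P * W := by
          refine sum_le_sum fun x hx => ?_
          obtain ⟨hx1, hx2⟩ := mem_filter.mp hx
          obtain ⟨hx3, hx4⟩ := mem_product.mp hx1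
          exact card_pair_coll hP hW0 (hS _ hx3) (hS _ hx4) (ne_of_lt hx2)
      _ = prs.card * (P * W) := by simp
  have h2 : P ≤ prs.card * W := by
    have : P * P ≤ P * (prs.card * W) := by
      calc P * P ≤ prs.card * (P * W) := h1
        _ = P * (prs.card * W) := by ring
    exact Nat.le_of_mul_le_mul_left this hP.pos
  have h3 : 2 * (P * K) ≤ (S.card * (S.card - 1)) * (2 * P) := by
    calc 2 * (P * K) ≤ 2 * (prs.card * W * K) := by
          apply Nat.mul_le_mul_left
          exact Nat.mul_le_mul_right _ h2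
      _ = (2 * prs.card) * (W * K) := by ring
      _ ≤ (S.card * (S.card - 1)) * (2 * P) :=
          Nat.mul_le_mul (two_card_lt_pairs S) hWK
  have h4 : K ≤ S.card * (S.card - 1) := by
    have h5 : (2 * P) * K ≤ (2 * P) * (S.card * (S.card - 1)) := by
      calc (2 * P) * K = 2 * (P * K) := by ring
        _ ≤ _ := h3
        _ = _ := by ring
    exact Nat.le_of_mul_le_mul_left h5 (by have := hP.pos; omega)
  rcases Nat.eq_zero_or_pos S.card with h0 | h0
  · rw [h0] at h4
    simp at h4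
    omega
  · have h5 : S.card * (S.card - 1) < S.card ^ 2 := by
      rw [pow_two]
      exact Nat.mul_lt_mul_of_pos_left (by omega) h0
    omega

end Vale.Agent.P313.AC.H70
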