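import Vale.Agent.P313.AC.H146.Adp
import Vale.Agent.P313.AC.H602.F3

/-!
Module F6: the tree which adds the estimates.
-/

namespace Vale.Agent.P313.AC.H70

open Finset

variable {D : Dat} {x : List Bool}

theorem gJ_sq (D : Dat) (n : ℕ) : gJ D n * gJ D n = (D.p n).f ^ (2 * D.j0) := by
  unfold gJ
  rw [← pow_add]
  congr 1
  omega

/-- Values of the sum tree. -/
theorem vS_lt (hD : D.Ok) (l t sg u y s w : ℕ)
    (hw : (w + 1) * (D.p x.length).f ^ s ≤ gJ D x.length * gJ D x.length) :
    vS D x l t sg u y s w < (D.p x.length).V := by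
  have h1 := (hD.good x.length).hV
  have h3 : vS D x l t sg u y s w ≤ (D.p x.length).f ^ s * (D.p x.length).U := by
    unfold vS
    calc _ ≤ ∑ _w ∈ Ico (w * (D.p x.length).f ^ s) ((w + 1) * (D.p x.length).f ^ s),
          (D.p x.length).U := sum_le_sum fun w _ => H602.pva_le D x _ _ _ _ _ _ _ _
      _ = _ := by
        rw [sum_const, Nat.card_Ico, smul_eq_mul, Nat.succ_mul, Nat.add_sub_cancel_left]
  rw [gJ_sq] at hw
  have h4 : (D.p x.length).f ^ s ≤ (D.p x.length).f ^ (2 * D.j0) :=
    le_trans (Nat.le_mul_of_pos_left _ (Nat.succ_pos w)) hw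
  have h5 := Nat.mul_le_mul_right (D.p x.length).U h4
  omega

/-- The estimates are ready when they are added. -/
theorem rE_lt {l t i j : ℕ} (h : okp (D.p x.length).b l t i j) :
    rE D x l t i j + 1 ≤ rS D l t 0 := by
  obtain ⟨h1, h2, h3, h4, h5⟩ := h
  unfold rE rS gr prc
  have hm : max i j + (t + t0 (D.p x.length).b l + 3 - (i + j)) ≤ t + 3 := by omega
  have hk := Nat.mul_le_mul_left (4 * D.κ) hm
  have e1 : D.κ * (4 * (t + t0 (D.p x.length).b l + 3 - (i + j)) + 3) =
    4 * D.κ * (t + t0 (D.p x.length).b l + 3 - (i + j)) + 3 * D.κ := by ring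
  have e2 : 4 * D.κ * (t + 3) = 4 * D.κ * t + 12 * D.κ := by ring
  have e3 : 4 * D.κ * (max i j + (t + t0 (D.p x.length).b l + 3 - (i + j))) =
    4 * D.κ * max i j + 4 * D.κ * (t + t0 (D.p x.length).b l + 3 - (i + j)) := by ring
  rw [e1]
  rw [e2, e3] at hk
  omega

/-- MODULE F6. -/
theorem modF6 : ModF6 := by
  intro D x hD hB T X hI l t sg u y s w v hl ht hsg hu hy hw hv hr
  rcases s with _ | s
  · have h0 : aS l t sg u y 0 w v 0 = 3 := rfl
    have h11 : aS l t sg u y 0 w v 11 = 0 := rfl
    have hop : opF D x X (aS l t sg u y 0 w v) ↔ opS0 D x X (aS l t sg u y 0 w v) := by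
      unfold opF
      rw [h0, h11]
      constructor
      · rintro (H | H | H | H | H | H | H | H)
        · exact absurd H.1 (by norm_num)
        · exact absurd H.1 (by norm_num)
        · exact absurd H.1 (by norm_num)
        · exact absurd H.1 (by norm_num)
        · exact absurd H.1 (by norm_num)
        · exact H.2.2
        · exact absurd rfl H.2.1
        · exact absurd H.1 (by norm_num)
      · intro H
        exact Or.inr (Or.inr (Or.inr (Or.inr (Or.inr (Or.inl ⟨rfl, rfl, H⟩)))))
    have hvS : vS D x l t sg u y 0 w = pva (D.p x.length).b (apxx D x) l t (vA D x l) sg u y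
        (w / gJ D x.length) (w % gJ D x.length) :=
      H146.sum_Ico_zero (D.p x.length).f (fun w0 => pva (D.p x.length).b (apxx D x) l t
        (vA D x l) sg u y (w0 / gJ D x.length) (w0 % gJ D x.length)) w
    rw [hop, hvS]
    show ((okp (D.p x.length).b l t (w / gJ D x.length) (w % gJ D x.length) ∧
      X (aE l t (w / gJ D x.length) (w % gJ D x.length) sg u y v)) ∨
      (¬ okp (D.p x.length).b l t (w / gJ D x.length) (w % gJ D x.length) ∧ v = 0)) ↔ _
    by_cases hok : okp (D.p x.length).b l t (w / gJ D x.length) (w % gJ D x.length)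
    · have hE := hI.cE l t (w / gJ D x.length) (w % gJ D x.length) sg u y v hl ht hok hsg hu hy hv
        (by have := rE_lt (D := D) (x := x) hok; omega)
      have hp : pva (D.p x.length).b (apxx D x) l t (vA D x l) sg u y
          (w / gJ D x.length) (w % gJ D x.length) =
          vE D x l t (w / gJ D x.length) (w % gJ D x.length) sg u y := by
        unfold pva vE
        rw [if_pos hok]
      rw [hp, hE]
      constructor
      · rintro (H | H)
        · exact H.2
        · exact absurd hok H.1
      · intro H
        exact Or.inl ⟨hok, H⟩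
    · have hp : pva (D.p x.length).b (apxx D x) l t (vA D x l) sg u y
          (w / gJ D x.length) (w % gJ D x.length) = 0 := by
        unfold pva
        rw [if_neg hok]
      rw [hp]
      constructor
      · rintro (H | H)
        · exact absurd H.1 hok
        · exact H.2
      · intro H
        exact Or.inr ⟨hok, H⟩
  · have h0 : aS l t sg u y (s + 1) w v 0 = 3 := rfl
    have h11 : aS l t sg u y (s + 1) w v 11 = s + 1 := rfl
    have hop : opF D x X (aS l t sg u y (s + 1) w v) ↔
        opS1 D x X (aS l t sg u y (s + 1) w v) := by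
      unfold opF
      rw [h0, h11]
      constructor
      · rintro (H | H | H | H | H | H | H | H)
        · exact absurd H.1 (by norm_num)
        · exact absurd H.1 (by norm_num)
        · exact absurd H.1 (by norm_num)
        · exact absurd H.1 (by norm_num)
        · exact absurd H.1 (by norm_num)
        · exact absurd H.2.1 (by omega)
        · exact H.2.2
        · exact absurd H.1 (by norm_num)
      · intro H
        exact Or.inr (Or.inr (Or.inr (Or.inr (Or.inr (Or.inr (Or.inl ⟨rfl, by omega, H⟩))))))
    have hsum : vS D x l t sg u y (s + 1) w =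
        ∑ i ∈ range (D.p x.length).f, vS D x l t sg u y s (w * (D.p x.length).f + i) :=
      H146.sum_Ico_succ (D.p x.length).f (fun w0 => pva (D.p x.length).b (apxx D x) l t
        (vA D x l) sg u y (w0 / gJ D x.length) (w0 % gJ D x.length)) s w
    rw [hop, hsum]
    show adp D x v (fun i c => X (aS l t sg u y (s + 1 - 1)
      (w * (D.p x.length).f + i) c)) ↔ _
    rw [Nat.add_sub_cancel]
    refine H146.adp_iff hD x ?_ ?_
    · rw [← hsum]
      exact vS_lt hD l t sg u y (s + 1) w hw
    · intro i hi c hc
      refine hI.cS l t sg u y s _ c hl ht hsg hu hy ?_ hc ?_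
      · exact H146.child_le hi hw
      · unfold rS at hr ⊢
        omega

end Vale.Agent.P313.AC.H70
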